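import Vale.Agent.Lib.P047.Defs

namespace Vale.Agent.Lib.P047

open Finset

noncomputable section

variable {n : ℕ}

lemma sum_prod_bool (h : Fin n → Bool → ℝ) :
    ∑ x : Fin n → Bool, ∏ i, h i (x i) = ∏ i, (h i true + h i false) := by
  have := Finset.prod_univ_sum (fun _ : Fin n => (univ : Finset Bool)) h
  rw [Fintype.piFinset_univ] at this
  rw [← this]
  simp

lemma sg_sq (b : Bool) : sg b * sg b = 1 := by
  cases b <;> simp [sg]

lemma sg_true : sg true = 1 := by simp [sg]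
lemma sg_false : sg false = -1 := by simp [sg]

/-- Fourier inversion. -/
lemma sum_chi_chi (x y : Fin n → Bool) :
    ∑ S : Finset (Fin n), chi S x * chi S y = if x = y then (2 : ℝ) ^ n else 0 := by
  have h1 : ∀ S : Finset (Fin n), chi S x * chi S y = ∏ i ∈ S, (sg (x i) * sg (y i)) := by
    intro S
    unfold chi
    rw [prod_mul_distrib]
  simp_rw [h1]
  have h2 := Finset.prod_one_add (s := (univ : Finset (Fin n))) (f := fun i => sg (x i) * sg (y i))
  rw [powerset_univ] at h2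
  rw [← h2]
  split_ifs with hxy
  · subst hxy
    simp [sg_sq]
    ring_nf
  · obtain ⟨i, hi⟩ := Function.ne_iff.mp hxy
    refine prod_eq_zero (mem_univ i) ?_
    cases hx : x i <;> cases hy : y i <;> simp_all [sg]

lemma fourier_inversion (f : (Fin n → Bool) → ℝ) (x : Fin n → Bool) :
    ∑ S : Finset (Fin n), fhat f S * chi S x = f x := by
  unfold fhat
  simp_rw [div_mul_eq_mul_div, sum_mul]
  rw [← sum_div, sum_comm]
  have h : ∀ y : Fin n → Bool, ∑ S : Finset (Fin n), f y * chi S y * chi S x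
      = f y * (if y = x then (2 : ℝ) ^ n else 0) := by
    intro y
    rw [← sum_chi_chi y x, mul_sum]
    refine sum_congr rfl fun S _ => ?_
    ring
  simp_rw [h, mul_ite, mul_zero]
  rw [sum_ite_eq' univ x]
  simp

/-- The biased weight of a point. -/
def wt (ρ : ℝ) (x : Fin n → Bool) : ℝ := ∏ i, ((1 + ρ * sg (x i)) / 2)

/-- The biased expectation. -/
def Ex (ρ : ℝ) (g : (Fin n → Bool) → ℝ) : ℝ := ∑ x, wt ρ x * g x

/-- The biased basis functions. -/
def psi (ρ : ℝ) (S : Finset (Fin n)) (x : Fin n → Bool) : ℝ := ∏ i ∈ S, (sg (x i) - ρ)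

lemma psi_eq_prod (ρ : ℝ) (S : Finset (Fin n)) (x : Fin n → Bool) :
    psi ρ S x = ∏ i, (if i ∈ S then sg (x i) - ρ else 1) := by
  unfold psi
  rw [prod_ite_mem univ S]
  simp

lemma wt_nonneg {ρ : ℝ} (h1 : -1 ≤ ρ) (h2 : ρ ≤ 1) (x : Fin n → Bool) : 0 ≤ wt ρ x := by
  refine prod_nonneg fun i _ => ?_
  cases x i <;> simp [sg] <;> linarith

lemma wt_pos {ρ : ℝ} (h1 : -1 < ρ) (h2 : ρ < 1) (x : Fin n → Bool) : 0 < wt ρ x := by
  refine prod_pos fun i _ => ?_
  cases x i <;> simp [sg] <;> linarith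

lemma Ex_psi_psi (ρ : ℝ) (S T : Finset (Fin n)) :
    Ex ρ (fun x => psi ρ S x * psi ρ T x) = if S = T then (1 - ρ ^ 2) ^ S.card else 0 := by
  unfold Ex wt
  have h : ∀ x : Fin n → Bool,
      (∏ i, ((1 + ρ * sg (x i)) / 2)) * (psi ρ S x * psi ρ T x)
        = ∏ i, (((1 + ρ * sg (x i)) / 2) * ((if i ∈ S then sg (x i) - ρ else 1)
            * (if i ∈ T then sg (x i) - ρ else 1))) := by
    intro x
    rw [psi_eq_prod, psi_eq_prod, ← prod_mul_distrib, ← prod_mul_distrib]
  simp_rw [h]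
  rw [sum_prod_bool (fun i b => ((1 + ρ * sg b) / 2) * ((if i ∈ S then sg b - ρ else 1)
            * (if i ∈ T then sg b - ρ else 1)))]
  simp only [sg_true, sg_false]
  split_ifs with hST
  · subst hST
    have : ∀ i, ((1 + ρ * 1) / 2 * ((if i ∈ S then 1 - ρ else 1) * (if i ∈ S then 1 - ρ else 1))
        + (1 + ρ * -1) / 2 * ((if i ∈ S then -1 - ρ else 1) * (if i ∈ S then -1 - ρ else 1)))
        = if i ∈ S then (1 - ρ ^ 2) else 1 := by
      intro i
      split_ifs <;> ring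
    simp_rw [this]
    rw [prod_ite_mem univ S]
    simp
  · have hex : ∃ i, (i ∈ S ∧ i ∉ T) ∨ (i ∉ S ∧ i ∈ T) := by
      by_contra hne
      apply hST
      ext i
      constructor
      · intro hi
        by_contra hit
        exact hne ⟨i, Or.inl ⟨hi, hit⟩⟩
      · intro hi
        by_contra hit
        exact hne ⟨i, Or.inr ⟨hit, hi⟩⟩
    obtain ⟨i, hi⟩ := hex
    refine prod_eq_zero (mem_univ i) ?_
    rcases hi with ⟨h1, h2⟩ | ⟨h1, h2⟩ <;> simp only [h1, h2, if_true, if_false] <;> ring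

lemma psi_empty (ρ : ℝ) (x : Fin n → Bool) : psi ρ (∅ : Finset (Fin n)) x = 1 := by
  simp [psi]

lemma Ex_psi (ρ : ℝ) (S : Finset (Fin n)) :
    Ex ρ (fun x => psi ρ S x) = if S = ∅ then 1 else 0 := by
  have := Ex_psi_psi ρ S ∅
  simp only [psi_empty, mul_one] at this
  rw [this]
  split_ifs with h
  · subst h
    simp
  · rfl

lemma Ex_one (ρ : ℝ) : Ex ρ (fun _ : Fin n → Bool => (1 : ℝ)) = 1 := by
  have := Ex_psi ρ (∅ : Finset (Fin n))
  simp only [psi_empty, if_true] at this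
  exact this

lemma sum_wt (ρ : ℝ) : ∑ x : Fin n → Bool, wt ρ x = 1 := by
  have := Ex_one (n := n) ρ
  simpa [Ex] using this

/-- Bilinear expansion of an expectation of a product of two sums of basis functions
indexed by an arbitrary finite type. -/
lemma Ex_linear {ι : Type*} (ρ : ℝ) (s : Finset ι) (a : ι → ℝ) (g : ι → (Fin n → Bool) → ℝ) :
    Ex ρ (fun x => ∑ j ∈ s, a j * g j x) = ∑ j ∈ s, a j * Ex ρ (g j) := by
  unfold Ex
  simp_rw [mul_sum]
  rw [sum_comm]
  refine sum_congr rfl fun j _ => sum_congr rfl fun x _ => ?_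
  ring

/-- The coefficient of `psi ρ S` in the biased expansion of `f`. -/
def coef (f : (Fin n → Bool) → ℝ) (ρ : ℝ) (S : Finset (Fin n)) : ℝ :=
  ∑ T : Finset (Fin n), if S ⊆ T then fhat f T * ρ ^ (T \ S).card else 0

lemma chi_expand (ρ : ℝ) (T : Finset (Fin n)) (x : Fin n → Bool) :
    chi T x = ∑ S : Finset (Fin n), if S ⊆ T then ρ ^ (T \ S).card * psi ρ S x else 0 := by
  have h1 : chi T x = ∏ i ∈ T, ((sg (x i) - ρ) + ρ) := by
    unfold chi
    refine prod_congr rfl fun i _ => ?_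
    ring
  rw [h1, prod_add]
  have h2 : ∀ S ∈ T.powerset, (∏ i ∈ S, (sg (x i) - ρ)) * ∏ _i ∈ T \ S, ρ
      = ρ ^ (T \ S).card * psi ρ S x := by
    intro S _
    rw [prod_const, psi]
    ring
  rw [sum_congr rfl h2]
  have h3 : ∀ S : Finset (Fin n), (if S ⊆ T then ρ ^ (T \ S).card * psi ρ S x else 0)
      = if S ∈ T.powerset then ρ ^ (T \ S).card * psi ρ S x else 0 := by
    intro S
    simp only [mem_powerset]
  simp_rw [h3]
  rw [sum_ite_mem univ T.powerset]
  simp

lemma expand (f : (Fin n → Bool) → ℝ) (ρ : ℝ) (x : Fin n → Bool) :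
    f x = ∑ S : Finset (Fin n), coef f ρ S * psi ρ S x := by
  rw [← fourier_inversion f x]
  simp_rw [chi_expand ρ _ x, mul_sum]
  rw [sum_comm]
  refine sum_congr rfl fun S _ => ?_
  unfold coef
  rw [sum_mul]
  refine sum_congr rfl fun T _ => ?_
  split_ifs
  · ring
  · simp

lemma coef_eq_zero {f : (Fin n → Bool) → ℝ} {d : ℕ}
    (hdeg : ∀ S : Finset (Fin n), d < S.card → fhat f S = 0) (ρ : ℝ) (S : Finset (Fin n))
    (hS : d < S.card) : coef f ρ S = 0 := by
  unfold coef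
  refine sum_eq_zero fun T _ => ?_
  split_ifs with h
  · rw [hdeg T (lt_of_lt_of_le hS (card_le_card h)), zero_mul]
  · rfl

/-- The mean polynomial evaluated at `ρ`. -/
def pval (f : (Fin n → Bool) → ℝ) (ρ : ℝ) : ℝ := ∑ T : Finset (Fin n), fhat f T * ρ ^ T.card

lemma coef_empty (f : (Fin n → Bool) → ℝ) (ρ : ℝ) : coef f ρ ∅ = pval f ρ := by
  unfold coef pval
  simp

/-- The derivative of the mean polynomial evaluated at `ρ`. -/
def dval (f : (Fin n → Bool) → ℝ) (ρ : ℝ) : ℝ :=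
  ∑ T : Finset (Fin n), fhat f T * (T.card * ρ ^ (T.card - 1))

lemma sum_coef_singleton (f : (Fin n → Bool) → ℝ) (ρ : ℝ) :
    ∑ i : Fin n, coef f ρ {i} = dval f ρ := by
  unfold coef dval
  rw [sum_comm]
  refine sum_congr rfl fun T _ => ?_
  have h : ∀ i : Fin n, (if ({i} : Finset (Fin n)) ⊆ T then fhat f T * ρ ^ (T \ {i}).card else 0)
      = if i ∈ T then fhat f T * ρ ^ (T.card - 1) else 0 := by
    intro i
    by_cases hi : i ∈ T
    · have hc : (T \ {i}).card = T.card - 1 := by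
        rw [← erase_eq, card_erase_of_mem hi]
      simp [hi, hc]
    · simp [hi]
  simp_rw [h]
  rw [sum_ite_mem univ T]
  simp
  ring

lemma Ex_f (f : (Fin n → Bool) → ℝ) (ρ : ℝ) : Ex ρ f = pval f ρ := by
  have h : f = fun x => ∑ S : Finset (Fin n), coef f ρ S * psi ρ S x := by
    funext x
    exact expand f ρ x
  conv_lhs => rw [h]
  rw [Ex_linear]
  simp_rw [Ex_psi]
  simp [coef_empty]

/-- Parseval for the biased basis, for a family of basis functions indexed with an injective map. -/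
lemma Ex_sq_index {ι : Type*} [DecidableEq ι] (ρ : ℝ) (s : Finset ι) (a : ι → ℝ)
    (e : ι → Finset (Fin n)) (he : Set.InjOn e s) :
    Ex ρ (fun x => (∑ j ∈ s, a j * psi ρ (e j) x) ^ 2)
      = ∑ j ∈ s, a j ^ 2 * (1 - ρ ^ 2) ^ (e j).card := by
  have h1 : (fun x : Fin n → Bool => (∑ j ∈ s, a j * psi ρ (e j) x) ^ 2)
      = fun x => ∑ j ∈ s, a j * (∑ l ∈ s, a l * (psi ρ (e j) x * psi ρ (e l) x)) := by
    funext x
    rw [sq, sum_mul]
    refine sum_congr rfl fun j _ => ?_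
    rw [mul_assoc, mul_sum, mul_sum, mul_sum]
    refine sum_congr rfl fun l _ => ?_
    ring
  rw [h1, Ex_linear]
  refine sum_congr rfl fun j hj => ?_
  rw [Ex_linear]
  simp_rw [Ex_psi_psi]
  have h2 : ∀ l ∈ s, a l * (if e j = e l then (1 - ρ ^ 2) ^ (e j).card else 0)
      = if l = j then a j * (1 - ρ ^ 2) ^ (e j).card else 0 := by
    intro l hl
    by_cases hlj : l = j
    · subst hlj
      simp
    · have : e j ≠ e l := fun h => hlj (he hl hj h.symm)
      simp [this, hlj]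
  rw [sum_congr rfl h2, sum_ite_eq' s j]
  simp [hj]
  ring

/-- Parseval for `f` itself. -/
lemma Ex_sq_f (f : (Fin n → Bool) → ℝ) (ρ : ℝ) :
    Ex ρ (fun x => f x ^ 2) = ∑ S : Finset (Fin n), coef f ρ S ^ 2 * (1 - ρ ^ 2) ^ S.card := by
  have h : (fun x => f x ^ 2)
      = fun x => (∑ S : Finset (Fin n), coef f ρ S * psi ρ (id S) x) ^ 2 := by
    funext x
    simp only [id]
    rw [← expand f ρ x]
  rw [h, Ex_sq_index ρ univ (coef f ρ) id (Function.injective_id.injOn)]
  simp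

/-- The discrete derivative in direction `i`. -/
def dif (f : (Fin n → Bool) → ℝ) (i : Fin n) (x : Fin n → Bool) : ℝ :=
  (f (Function.update x i true) - f (Function.update x i false)) / 2

lemma psi_update (ρ : ℝ) (S : Finset (Fin n)) (x : Fin n → Bool) (i : Fin n) (b : Bool) :
    psi ρ S (Function.update x i b)
      = if i ∈ S then (sg b - ρ) * psi ρ (S.erase i) x else psi ρ S x := by
  unfold psi
  split_ifs with hi
  · rw [← mul_prod_erase S _ hi, Function.update_self]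
    congr 1
    refine prod_congr rfl fun j hj => ?_
    rw [Function.update_of_ne (ne_of_mem_erase hj)]
  · refine prod_congr rfl fun j hj => ?_
    have : j ≠ i := fun h => hi (h ▸ hj)
    rw [Function.update_of_ne this]

lemma dif_expand (f : (Fin n → Bool) → ℝ) (ρ : ℝ) (i : Fin n) (x : Fin n → Bool) :
    dif f i x = ∑ S ∈ univ.filter (fun S : Finset (Fin n) => i ∈ S),
      coef f ρ S * psi ρ (S.erase i) x := by
  unfold dif
  rw [expand f ρ (Function.update x i true), expand f ρ (Function.update x i false)]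
  rw [← sum_sub_distrib, sum_div, sum_filter]
  refine sum_congr rfl fun S _ => ?_
  rw [psi_update, psi_update]
  split_ifs with hi
  · rw [sg_true, sg_false]
    ring
  · ring

lemma erase_injOn (i : Fin n) :
    Set.InjOn (fun S : Finset (Fin n) => S.erase i)
      (univ.filter (fun S : Finset (Fin n) => i ∈ S) : Finset (Finset (Fin n))) := by
  intro S hS T hT h
  have hS' : i ∈ S := (mem_filter.mp (mem_coe.mp hS)).2
  have hT' : i ∈ T := (mem_filter.mp (mem_coe.mp hT)).2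
  have := congrArg (insert i) h
  simp only at this
  rwa [insert_erase hS', insert_erase hT'] at this

lemma Ex_dif (f : (Fin n → Bool) → ℝ) (ρ : ℝ) (i : Fin n) :
    Ex ρ (dif f i) = coef f ρ {i} := by
  have h : dif f i = fun x => ∑ S ∈ univ.filter (fun S : Finset (Fin n) => i ∈ S),
      coef f ρ S * psi ρ (S.erase i) x := by
    funext x
    exact dif_expand f ρ i x
  rw [h, Ex_linear]
  simp_rw [Ex_psi]
  rw [sum_eq_single ({i} : Finset (Fin n))]
  · simp
  · intro S hS hne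
    have hi : i ∈ S := (mem_filter.mp hS).2
    have : S.erase i ≠ ∅ := by
      intro h0
      apply hne
      have := insert_erase hi
      rw [h0] at this
      rw [← this]
      rfl
    simp [this]
  · intro h0
    simp at h0

lemma Ex_dif_sq (f : (Fin n → Bool) → ℝ) (ρ : ℝ) (i : Fin n) :
    (1 - ρ ^ 2) * Ex ρ (fun x => dif f i x ^ 2)
      = ∑ S ∈ univ.filter (fun S : Finset (Fin n) => i ∈ S),
          coef f ρ S ^ 2 * (1 - ρ ^ 2) ^ S.card := by
  have h : (fun x => dif f i x ^ 2)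
      = fun x => (∑ S ∈ univ.filter (fun S : Finset (Fin n) => i ∈ S),
          coef f ρ S * psi ρ (S.erase i) x) ^ 2 := by
    funext x
    rw [dif_expand f ρ i x]
  rw [h, Ex_sq_index ρ _ (coef f ρ) (fun S => S.erase i) (erase_injOn i), mul_sum]
  refine sum_congr rfl fun S hS => ?_
  have hi : i ∈ S := (mem_filter.mp hS).2
  have hc : S.card = (S.erase i).card + 1 := by
    rw [card_erase_of_mem hi]
    have := card_pos.mpr ⟨i, hi⟩
    omega
  rw [hc, pow_succ]
  simp only [card_erase_of_mem hi]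
  have : S.card - 1 + 1 - 1 = S.card - 1 := by omega
  ring_nf

/-- The influence sum is controlled by the degree. -/
lemma influence_le {f : (Fin n → Bool) → ℝ} {d : ℕ}
    (hdeg : ∀ S : Finset (Fin n), d < S.card → fhat f S = 0) {ρ : ℝ} (h1 : -1 ≤ ρ) (h2 : ρ ≤ 1) :
    (1 - ρ ^ 2) * ∑ i : Fin n, Ex ρ (fun x => dif f i x ^ 2)
      ≤ d * (Ex ρ (fun x => f x ^ 2) - pval f ρ ^ 2) := by
  have hσ : 0 ≤ 1 - ρ ^ 2 := by nlinarith
  rw [mul_sum]
  simp_rw [Ex_dif_sq, sum_filter]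
  rw [sum_comm]
  have h3 : ∀ S : Finset (Fin n), (∑ i : Fin n, if i ∈ S then
        coef f ρ S ^ 2 * (1 - ρ ^ 2) ^ S.card else 0)
      = S.card * (coef f ρ S ^ 2 * (1 - ρ ^ 2) ^ S.card) := by
    intro S
    rw [sum_ite_mem univ S]
    simp
  simp_rw [h3]
  rw [Ex_sq_f]
  have h4 : pval f ρ ^ 2 = coef f ρ ∅ ^ 2 * (1 - ρ ^ 2) ^ (∅ : Finset (Fin n)).card := by
    rw [coef_empty]
    simp
  set G : Finset (Fin n) → ℝ := fun S => coef f ρ S ^ 2 * (1 - ρ ^ 2) ^ S.card with hG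
  have hG0 : ∀ S, 0 ≤ G S := fun S => mul_nonneg (sq_nonneg _) (pow_nonneg hσ _)
  have h4' : pval f ρ ^ 2 = G ∅ := h4
  have h5 : ∑ S : Finset (Fin n), (S.card : ℝ) * G S
      = ∑ S ∈ (univ : Finset (Finset (Fin n))).erase ∅, (S.card : ℝ) * G S := by
    rw [← add_sum_erase univ _ (mem_univ (∅ : Finset (Fin n)))]
    simp
  have h6 : ∑ S : Finset (Fin n), G S - pval f ρ ^ 2
      = ∑ S ∈ (univ : Finset (Finset (Fin n))).erase ∅, G S := by
    rw [h4', ← add_sum_erase univ _ (mem_univ (∅ : Finset (Fin n)))]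
    ring
  change ∑ S : Finset (Fin n), (S.card : ℝ) * G S ≤ d * (∑ S : Finset (Fin n), G S - pval f ρ ^ 2)
  rw [h5, h6, mul_sum]
  refine sum_le_sum fun S _ => ?_
  by_cases hS : d < S.card
  · have : G S = 0 := by
      simp only [hG]
      rw [coef_eq_zero hdeg ρ S hS]
      simp
    rw [this]
    simp
  · have : (S.card : ℝ) ≤ d := by exact_mod_cast not_lt.mp hS
    exact mul_le_mul_of_nonneg_right this (hG0 S)

/-- The Boolean Lipschitz estimate. -/
lemma boolean_lipschitz {f : (Fin n → Bool) → ℝ} {d : ℕ} (hf : ∀ x, f x = 1 ∨ f x = -1)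
    (hdeg : ∀ S : Finset (Fin n), d < S.card → fhat f S = 0) {ρ : ℝ} (h1 : -1 ≤ ρ) (h2 : ρ ≤ 1) :
    (1 - ρ ^ 2) * |dval f ρ| ≤ d * (1 - pval f ρ ^ 2) := by
  have hσ : 0 ≤ 1 - ρ ^ 2 := by nlinarith
  have hsq : Ex ρ (fun x => f x ^ 2) = 1 := by
    have : (fun x => f x ^ 2) = fun _ => (1 : ℝ) := by
      funext x
      rcases hf x with h | h <;> rw [h] <;> norm_num
    rw [this, Ex_one]
  have h3 := influence_le hdeg h1 h2
  rw [hsq] at h3
  refine le_trans ?_ h3
  refine mul_le_mul_of_nonneg_left ?_ hσ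
  rw [← sum_coef_singleton]
  refine (abs_sum_le_sum_abs _ _).trans (sum_le_sum fun i _ => ?_)
  rw [← Ex_dif]
  unfold Ex
  refine (abs_sum_le_sum_abs _ _).trans (sum_le_sum fun x _ => ?_)
  rw [abs_mul, abs_of_nonneg (wt_nonneg h1 h2 x)]
  refine mul_le_mul_of_nonneg_left ?_ (wt_nonneg h1 h2 x)
  have hd : dif f i x = 0 ∨ dif f i x = 1 ∨ dif f i x = -1 := by
    unfold dif
    rcases hf (Function.update x i true) with h | h <;> rcases hf (Function.update x i false) with h' | h' <;>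
      rw [h, h'] <;> norm_num
  rcases hd with h | h | h <;> simp [h]

lemma pval_abs_le {f : (Fin n → Bool) → ℝ} (hf : ∀ x, f x = 1 ∨ f x = -1) {ρ : ℝ}
    (h1 : -1 ≤ ρ) (h2 : ρ ≤ 1) : |pval f ρ| ≤ 1 := by
  rw [← Ex_f]
  unfold Ex
  refine (abs_sum_le_sum_abs _ _).trans ?_
  rw [← sum_wt (n := n) ρ]
  refine sum_le_sum fun x _ => ?_
  rw [abs_mul, abs_of_nonneg (wt_nonneg h1 h2 x)]
  have : |f x| = 1 := by rcases hf x with h | h <;> rw [h] <;> norm_num
  rw [this, mul_one]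

lemma pval_lt_one {f : (Fin n → Bool) → ℝ} (hf : ∀ x, f x = 1 ∨ f x = -1) {ρ : ℝ}
    (h1 : -1 < ρ) (h2 : ρ < 1) {y : Fin n → Bool} (hy : f y = -1) : pval f ρ < 1 := by
  rw [← Ex_f]
  unfold Ex
  have : ∑ x, wt ρ x * f x < ∑ x : Fin n → Bool, wt ρ x := by
    refine sum_lt_sum (fun x _ => ?_) ⟨y, mem_univ y, ?_⟩
    · have hw := wt_pos h1 h2 x
      rcases hf x with h | h <;> rw [h] <;> nlinarith
    · have hw := wt_pos h1 h2 y
      rw [hy]
      nlinarith
  rwa [sum_wt] at this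

lemma neg_one_lt_pval {f : (Fin n → Bool) → ℝ} (hf : ∀ x, f x = 1 ∨ f x = -1) {ρ : ℝ}
    (h1 : -1 < ρ) (h2 : ρ < 1) {y : Fin n → Bool} (hy : f y = 1) : -1 < pval f ρ := by
  rw [← Ex_f]
  unfold Ex
  have : ∑ x : Fin n → Bool, -wt ρ x < ∑ x, wt ρ x * f x := by
    refine sum_lt_sum (fun x _ => ?_) ⟨y, mem_univ y, ?_⟩
    · have hw := wt_pos h1 h2 x
      rcases hf x with h | h <;> rw [h] <;> nlinarith
    · have hw := wt_pos h1 h2 y
      rw [hy]
      nlinarith
  rwa [sum_neg_distrib, sum_wt] at this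

end

end Vale.Agent.Lib.P047
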