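import Vale.Agent.Lib.P047.Riesz
import Vale.Agent.Lib.P047.Biased

namespace Vale.Agent.Lib.P047

open Finset Polynomial

noncomputable section

variable {n : ℕ}

/-- The mean polynomial of `f`. -/
def ppoly (f : (Fin n → Bool) → ℝ) : ℝ[X] := ∑ T : Finset (Fin n), C (fhat f T) * X ^ T.card

lemma ppoly_eval (f : (Fin n → Bool) → ℝ) (ρ : ℝ) : (ppoly f).eval ρ = pval f ρ := by
  simp [ppoly, pval, eval_finsetSum]

lemma ppoly_deriv_eval (f : (Fin n → Bool) → ℝ) (ρ : ℝ) :
    (ppoly f).derivative.eval ρ = dval f ρ := by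
  simp [ppoly, dval, eval_finsetSum, derivative_X_pow]

lemma ppoly_natDegree {f : (Fin n → Bool) → ℝ} {d : ℕ}
    (hdeg : ∀ S : Finset (Fin n), d < S.card → fhat f S = 0) : (ppoly f).natDegree ≤ d := by
  unfold ppoly
  refine natDegree_sum_le_of_forall_le _ _ fun T _ => ?_
  by_cases h : d < T.card
  · rw [hdeg T h]
    simp
  · exact (natDegree_C_mul_X_pow_le _ _).trans (not_lt.mp h)

lemma pval_hasDerivAt (f : (Fin n → Bool) → ℝ) (ρ : ℝ) : HasDerivAt (pval f) (dval f ρ) ρ := by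
  have h := (ppoly f).hasDerivAt ρ
  rw [ppoly_deriv_eval] at h
  have h2 : (fun x => (ppoly f).eval x) = pval f := funext (ppoly_eval f)
  rwa [h2] at h

/-- The monotone quantity behind the differential inequality. -/
def phi (f : (Fin n → Bool) → ℝ) (d : ℕ) (ρ : ℝ) : ℝ :=
  Real.log (1 + pval f ρ) - Real.log (1 - pval f ρ)
    - d * (Real.log (1 + ρ) - Real.log (1 - ρ))

lemma phi_hasDerivAt (f : (Fin n → Bool) → ℝ) (d : ℕ) {ρ : ℝ} (h1 : -1 < ρ) (h2 : ρ < 1)
    (hp1 : -1 < pval f ρ) (hp2 : pval f ρ < 1) :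
    HasDerivAt (phi f d)
      (dval f ρ / (1 + pval f ρ) - (-dval f ρ) / (1 - pval f ρ)
        - d * (1 / (1 + ρ) - (-1) / (1 - ρ))) ρ := by
  have hp := pval_hasDerivAt f ρ
  have a1 : HasDerivAt (fun x => Real.log (1 + pval f x)) (dval f ρ / (1 + pval f ρ)) ρ :=
    (hp.const_add 1).log (by linarith)
  have a2 : HasDerivAt (fun x => Real.log (1 - pval f x)) ((-dval f ρ) / (1 - pval f ρ)) ρ :=
    (hp.const_sub 1).log (by linarith)
  have hid := hasDerivAt_id ρ
  have a3 : HasDerivAt (fun x : ℝ => Real.log (1 + x)) (1 / (1 + ρ)) ρ :=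
    (hid.const_add 1).log (by simp only [id]; linarith)
  have a4 : HasDerivAt (fun x : ℝ => Real.log (1 - x)) ((-1) / (1 - ρ)) ρ :=
    (hid.const_sub 1).log (by simp only [id]; linarith)
  exact (a1.sub a2).sub ((a3.sub a4).const_mul (d : ℝ))

lemma phi_deriv_nonpos {f : (Fin n → Bool) → ℝ} {d : ℕ} (hf : ∀ x, f x = 1 ∨ f x = -1)
    (hdeg : ∀ S : Finset (Fin n), d < S.card → fhat f S = 0) {ρ : ℝ} (h1 : -1 < ρ) (h2 : ρ < 1)
    (hp1 : -1 < pval f ρ) (hp2 : pval f ρ < 1) :
    dval f ρ / (1 + pval f ρ) - (-dval f ρ) / (1 - pval f ρ)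
        - d * (1 / (1 + ρ) - (-1) / (1 - ρ)) ≤ 0 := by
  have hbc := boolean_lipschitz hf hdeg h1.le h2.le
  set p := pval f ρ with hp
  set q := dval f ρ with hq
  have hA : 0 < 1 - p ^ 2 := by nlinarith
  have hB : 0 < 1 - ρ ^ 2 := by nlinarith
  have hq' : (1 - ρ ^ 2) * q ≤ d * (1 - p ^ 2) :=
    (mul_le_mul_of_nonneg_left (le_abs_self q) hB.le).trans hbc
  have e1 : q / (1 + p) - (-q) / (1 - p) = 2 * q / (1 - p ^ 2) := by
    have : 1 + p ≠ 0 := by linarith
    have : 1 - p ≠ 0 := by linarith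
    have : 1 - p ^ 2 ≠ 0 := hA.ne'
    field_simp
    ring
  have e2 : 1 / (1 + ρ) - (-1) / (1 - ρ) = 2 / (1 - ρ ^ 2) := by
    have : 1 + ρ ≠ 0 := by linarith
    have : 1 - ρ ≠ 0 := by linarith
    have : 1 - ρ ^ 2 ≠ 0 := hB.ne'
    field_simp
    ring
  rw [e1, e2, sub_nonpos, ← mul_div_assoc, div_le_div_iff₀ hA hB]
  nlinarith

lemma phi_anti {f : (Fin n → Bool) → ℝ} {d : ℕ} (hf : ∀ x, f x = 1 ∨ f x = -1)
    (hdeg : ∀ S : Finset (Fin n), d < S.card → fhat f S = 0) {y1 y2 : Fin n → Bool}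
    (hy1 : f y1 = 1) (hy2 : f y2 = -1) : AntitoneOn (phi f d) (Set.Ioo (-1) 1) := by
  have hD : ∀ x ∈ Set.Ioo (-1 : ℝ) 1, HasDerivAt (phi f d)
      (dval f x / (1 + pval f x) - (-dval f x) / (1 - pval f x)
        - d * (1 / (1 + x) - (-1) / (1 - x))) x := fun x hx =>
    phi_hasDerivAt f d hx.1 hx.2 (neg_one_lt_pval hf hx.1 hx.2 hy1) (pval_lt_one hf hx.1 hx.2 hy2)
  apply antitoneOn_of_deriv_nonpos (convex_Ioo _ _)
  · exact fun x hx => (hD x hx).continuousAt.continuousWithinAt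
  · rw [interior_Ioo]
    exact fun x hx => (hD x hx).differentiableAt.differentiableWithinAt
  · intro x hx
    rw [interior_Ioo] at hx
    rw [(hD x hx).deriv]
    exact phi_deriv_nonpos hf hdeg hx.1 hx.2 (neg_one_lt_pval hf hx.1 hx.2 hy1)
      (pval_lt_one hf hx.1 hx.2 hy2)

lemma ode_bound {f : (Fin n → Bool) → ℝ} {d : ℕ} (hf : ∀ x, f x = 1 ∨ f x = -1)
    (hdeg : ∀ S : Finset (Fin n), d < S.card → fhat f S = 0) {y1 y2 : Fin n → Bool}
    (hy1 : f y1 = 1) (hy2 : f y2 = -1) {t : ℝ} (ht0 : 0 < t) (ht1 : t < 1) :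
    (1 + pval f t) * (1 - pval f (-t))
      ≤ (((1 + t) / (1 - t)) ^ d) ^ 2 * ((1 - pval f t) * (1 + pval f (-t))) := by
  have hmem1 : t ∈ Set.Ioo (-1 : ℝ) 1 := ⟨by linarith, ht1⟩
  have hmem2 : -t ∈ Set.Ioo (-1 : ℝ) 1 := ⟨by linarith, by linarith⟩
  have hanti := phi_anti hf hdeg hy1 hy2 hmem2 hmem1 (by linarith)
  unfold phi at hanti
  have a1 := neg_one_lt_pval hf hmem1.1 hmem1.2 hy1
  have a2 := pval_lt_one hf hmem1.1 hmem1.2 hy2
  have a3 := neg_one_lt_pval hf hmem2.1 hmem2.2 hy1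
  have a4 := pval_lt_one hf hmem2.1 hmem2.2 hy2
  set p1 := pval f t
  set p2 := pval f (-t)
  have ht2 : 0 < 1 - t := by linarith
  have ht3 : 0 < 1 + t := by linarith
  have hR : 0 < (1 + t) / (1 - t) := div_pos ht3 ht2
  have hRpow : 0 < ((1 + t) / (1 - t)) ^ d := pow_pos hR d
  have l0 : Real.log ((1 + t) / (1 - t)) = Real.log (1 + t) - Real.log (1 - t) :=
    Real.log_div ht3.ne' ht2.ne'
  have lhsP : 0 < (1 + p1) * (1 - p2) := mul_pos (by linarith) (by linarith)
  have rhsP : 0 < (((1 + t) / (1 - t)) ^ d) ^ 2 * ((1 - p1) * (1 + p2)) :=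
    mul_pos (pow_pos hRpow 2) (mul_pos (by linarith) (by linarith))
  rw [← Real.log_le_log_iff lhsP rhsP]
  rw [Real.log_mul (by linarith) (by linarith), Real.log_mul (pow_pos hRpow 2).ne' (mul_pos (by linarith) (by linarith)).ne',
    Real.log_mul (by linarith) (by linarith), Real.log_pow, Real.log_pow, l0]
  have e1 : (1 : ℝ) + -t = 1 - t := by ring
  have e2 : (1 : ℝ) - -t = 1 + t := by ring
  rw [e1, e2] at hanti
  push_cast
  nlinarith

lemma gap_lower {R p1 p2 : ℝ} (hR : 1 ≤ R) (h1 : -1 < p1) (h2 : p1 < 1) (h3 : -1 < p2) (h4 : p2 < 1)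
    (h : (1 + p1) * (1 - p2) ≤ R ^ 2 * ((1 - p1) * (1 + p2))) :
    4 / (R + 1) ≤ 2 - (p1 - p2) := by
  have hR1 : 0 < R + 1 := by linarith
  rw [div_le_iff₀ hR1]
  set v := 1 - p1 with hv
  set w := 1 + p2 with hw
  have hvpos : 0 < v := by rw [hv]; linarith
  have hwpos : 0 < w := by rw [hw]; linarith
  have hp1 : p1 = 1 - v := by rw [hv]; ring
  have hp2 : p2 = w - 1 := by rw [hw]; ring
  have e : 2 - (p1 - p2) = v + w := by rw [hp1, hp2]; ring
  have h' : (2 - v) * (2 - w) ≤ R ^ 2 * (v * w) := by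
    have e1 : 1 + p1 = 2 - v := by rw [hp1]; ring
    have e2 : 1 - p2 = 2 - w := by rw [hp2]; ring
    rw [← e1, ← e2]
    exact h
  rw [e]
  by_contra hcon
  push Not at hcon
  -- set the sum `A = v + w`
  set A := v + w with hA
  have hApos : 0 < A := by rw [hA]; linarith
  have hvw : v * w ≤ (A / 2) ^ 2 := by
    rw [hA]
    nlinarith [sq_nonneg (v - w)]
  have h2' : 4 - 2 * A ≤ (R ^ 2 - 1) * (v * w) := by
    rw [hA]
    nlinarith
  have hR2 : 0 ≤ R ^ 2 - 1 := by nlinarith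
  have h3' : 4 - 2 * A ≤ (R ^ 2 - 1) * (A / 2) ^ 2 :=
    h2'.trans (mul_le_mul_of_nonneg_left hvw hR2)
  -- now `B = A (R + 1) < 4`
  set B := A * (R + 1) with hB
  have hBpos : 0 < B := mul_pos hApos hR1
  have h4' : 16 * (R + 1) - 8 * B ≤ (R - 1) * B ^ 2 := by
    have e3 : (R + 1) * (4 * (4 - 2 * A) * (R + 1)) ≤ (R + 1) * (4 * ((R ^ 2 - 1) * (A / 2) ^ 2) * (R + 1)) := by
      apply mul_le_mul_of_nonneg_left _ hR1.le
      apply mul_le_mul_of_nonneg_right _ hR1.le
      linarith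
    have e4 : (R + 1) * (4 * (4 - 2 * A) * (R + 1)) = (R + 1) * (16 * (R + 1) - 8 * B) := by
      rw [hB]; ring
    have e5 : (R + 1) * (4 * ((R ^ 2 - 1) * (A / 2) ^ 2) * (R + 1)) = (R + 1) * ((R - 1) * B ^ 2) := by
      rw [hB]; ring
    rw [e4, e5] at e3
    exact le_of_mul_le_mul_left e3 hR1
  have hB4 : B < 4 := hcon
  have h5 : (R - 1) * B ^ 2 ≤ (R - 1) * (4 * B) :=
    mul_le_mul_of_nonneg_left (by nlinarith) (by linarith)
  nlinarith

/-- Numerical facts on the node. -/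
lemma rate_bound {d : ℕ} (hd : 2 ≤ d) :
    ((1 + Real.sin (Real.pi / (2 * d))) / (1 - Real.sin (Real.pi / (2 * d)))) ^ d ≤ 50 := by
  rcases (by omega : d = 2 ∨ d = 3 ∨ 4 ≤ d) with h | h | h
  · subst h
    have e : Real.pi / (2 * ((2 : ℕ) : ℝ)) = Real.pi / 4 := by
      push_cast
      ring
    rw [e, Real.sin_pi_div_four]
    have hs : (Real.sqrt 2) ^ 2 = 2 := Real.sq_sqrt (by norm_num)
    have hs1 : Real.sqrt 2 < 3 / 2 := by
      rw [Real.sqrt_lt' (by norm_num)]
      norm_num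
    have hs0 : 0 < Real.sqrt 2 := by positivity
    have e2 : (1 + Real.sqrt 2 / 2) / (1 - Real.sqrt 2 / 2) = 3 + 2 * Real.sqrt 2 := by
      have : 1 - Real.sqrt 2 / 2 ≠ 0 := by
        intro h0
        nlinarith
      rw [div_eq_iff this]
      linear_combination hs
    rw [e2]
    nlinarith
  · subst h
    have e : Real.pi / (2 * ((3 : ℕ) : ℝ)) = Real.pi / 6 := by
      push_cast
      ring
    rw [e, Real.sin_pi_div_six]
    norm_num
  · have hd0 : (0 : ℝ) < d := by
      exact_mod_cast (by omega : 0 < d)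
    have hd4 : (4 : ℝ) ≤ d := by exact_mod_cast h
    set x := Real.pi / (2 * d) with hx
    have hx0 : 0 < x := by positivity
    have hπ := Real.pi_lt_d4
    have hπ0 := Real.pi_gt_three
    have hx1 : x * d = Real.pi / 2 := by
      rw [hx]
      field_simp
    have hx2 : x ≤ 2 / 5 := by
      rw [hx, div_le_iff₀ (by positivity)]
      nlinarith
    set t := Real.sin x with ht
    have ht0 : 0 < t := Real.sin_pos_of_pos_of_lt_pi hx0 (by linarith)
    have ht1 : t ≤ x := Real.sin_le hx0.le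
    have ht2 : t ≤ 2 / 5 := ht1.trans hx2
    have hden : 0 < 1 - t := by linarith
    have hden2 : 0 < 1 - t ^ 2 := by nlinarith
    -- the elementary estimate
    have e1 : 1 + t ≤ Real.exp t := by linarith [Real.add_one_le_exp t]
    have e2 : 1 / (1 - t ^ 2) ≤ Real.exp (t ^ 2 / (1 - t ^ 2)) := by
      have := Real.add_one_le_exp (t ^ 2 / (1 - t ^ 2))
      have e3 : t ^ 2 / (1 - t ^ 2) + 1 = 1 / (1 - t ^ 2) := by
        field_simp
        ring
      rwa [e3] at this
    have e4 : (1 + t) / (1 - t) = (1 + t) * (1 + t) * (1 / (1 - t ^ 2)) := by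
      have : 1 + t ≠ 0 := by linarith
      have : 1 - t ≠ 0 := by linarith
      have : 1 - t ^ 2 ≠ 0 := hden2.ne'
      field_simp
      ring
    have e5 : (1 + t) / (1 - t) ≤ Real.exp (t + t + t ^ 2 / (1 - t ^ 2)) := by
      rw [e4, Real.exp_add, Real.exp_add]
      have ht3 : 0 ≤ 1 + t := by linarith
      have hdiv : 0 ≤ 1 / (1 - t ^ 2) := by positivity
      exact mul_le_mul (mul_le_mul e1 e1 ht3 (Real.exp_pos _).le) e2 hdiv
        (by positivity)
    have e6 : t + t + t ^ 2 / (1 - t ^ 2) ≤ (52 / 21) * t := by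
      have : t ^ 2 / (1 - t ^ 2) ≤ (10 / 21) * t := by
        rw [div_le_iff₀ hden2]
        nlinarith
      linarith
    have e7 : (1 + t) / (1 - t) ≤ Real.exp ((52 / 21) * t) :=
      e5.trans (Real.exp_le_exp.mpr e6)
    have hbase : 0 ≤ (1 + t) / (1 - t) := div_nonneg (by linarith) hden.le
    calc ((1 + t) / (1 - t)) ^ d ≤ (Real.exp ((52 / 21) * t)) ^ d :=
          pow_le_pow_left₀ hbase e7 d
      _ = Real.exp (d * ((52 / 21) * t)) := (Real.exp_nat_mul _ d).symm
      _ ≤ Real.exp (4 - 1 / 10) := by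
          apply Real.exp_le_exp.mpr
          have : (d : ℝ) * t ≤ d * x := mul_le_mul_of_nonneg_left ht1 hd0.le
          rw [mul_comm (d : ℝ) x, hx1] at this
          nlinarith
      _ = Real.exp 1 ^ 4 / Real.exp (1 / 10) := by
          rw [Real.exp_sub, ← Real.exp_nat_mul]
          norm_num
      _ ≤ 50 := by
          have h1 := Real.exp_one_lt_d9
          have h0 := Real.exp_pos 1
          have h2 : (11 / 10 : ℝ) ≤ Real.exp (1 / 10) := by
            have := Real.add_one_le_exp (1 / 10 : ℝ)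
            linarith
          rw [div_le_iff₀ (Real.exp_pos _)]
          have h3 : Real.exp 1 ^ 4 ≤ (2.7182818286 : ℝ) ^ 4 :=
            pow_le_pow_left₀ h0.le h1.le 4
          have h4 : (2.7182818286 : ℝ) ^ 4 ≤ 50 * (11 / 10) := by norm_num
          linarith

lemma dval_bound_of_nonconstant {f : (Fin n → Bool) → ℝ} {d : ℕ} (hd : 2 ≤ d)
    (hf : ∀ x, f x = 1 ∨ f x = -1)
    (hdeg : ∀ S : Finset (Fin n), d < S.card → fhat f S = 0) {y1 y2 : Fin n → Bool}
    (hy1 : f y1 = 1) (hy2 : f y2 = -1) : dval f 0 ≤ (31 / 32 : ℝ) * d := by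
  have hd0 : (0 : ℝ) < d := by
    exact_mod_cast (by omega : 0 < d)
  have hd2 : (2 : ℝ) ≤ d := by exact_mod_cast hd
  set x := Real.pi / (2 * d) with hx
  have hπ := Real.pi_lt_d4
  have hπ0 := Real.pi_gt_three
  have hx0 : 0 < x := by positivity
  have hx1 : x ≤ Real.pi / 4 := by
    rw [hx]
    apply div_le_div_of_nonneg_left Real.pi_pos.le (by norm_num)
    linarith
  set t := Real.sin x with ht
  have ht0 : 0 < t := Real.sin_pos_of_pos_of_lt_pi hx0 (by linarith)
  have ht1 : t < 1 := by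
    have := Real.sin_lt_sin_of_lt_of_le_pi_div_two (x := x) (y := Real.pi / 2) (by linarith)
      le_rfl (by linarith)
    rwa [Real.sin_pi_div_two] at this
  have hR := rate_bound hd
  rw [← hx, ← ht] at hR
  set R := ((1 + t) / (1 - t)) ^ d with hRdef
  have hR1 : 1 ≤ R := by
    apply one_le_pow₀
    rw [one_le_div (by linarith)]
    linarith
  have hmem1 : -1 < t := by linarith
  have hmem2 : -1 < -t := by linarith
  have hmem3 : -t < 1 := by linarith
  have hode := ode_bound hf hdeg hy1 hy2 ht0 ht1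
  have hgap := gap_lower hR1 (neg_one_lt_pval hf hmem1 ht1 hy1) (pval_lt_one hf hmem1 ht1 hy2)
    (neg_one_lt_pval hf hmem2 hmem3 hy1) (pval_lt_one hf hmem2 hmem3 hy2) hode
  have hriesz := riesz_bound (n := d) (by omega) (ppoly f) (ppoly_natDegree hdeg)
    (fun ρ h1 h2 => by
      rw [ppoly_eval]
      exact pval_abs_le hf h1 h2)
  rw [ppoly_eval, ppoly_eval, ppoly_deriv_eval, ← hx, ← ht] at hriesz
  have hk := kappa_zero_ge (n := d) (by omega)
  set k := kappa d 0 with hkdef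
  have hgap2 : (4 / 51 : ℝ) ≤ 2 - (pval f t - pval f (-t)) := by
    refine le_trans ?_ hgap
    apply div_le_div_of_nonneg_left (by norm_num) (by linarith)
    linarith
  have hπ2 : Real.pi ^ 2 ≤ 9.87 := by nlinarith
  have hπ3 : 0 < Real.pi ^ 2 := by positivity
  have hk2 : (4 / 9.87 : ℝ) * (d : ℝ) ^ 2 ≤ k := by
    refine le_trans ?_ hk
    rw [le_div_iff₀ hπ3]
    have h3 : 0 ≤ (d : ℝ) ^ 2 := by positivity
    have : (4 / 9.87 : ℝ) * Real.pi ^ 2 ≤ 4 := by
      rw [div_mul_eq_mul_div, div_le_iff₀ (by norm_num)]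
      linarith
    nlinarith
  have h5 : (d : ℝ) ^ 2 / 32 ≤ k * (2 - (pval f t - pval f (-t))) := by
    have h6 : 0 ≤ k := le_trans (by positivity) hk2
    have h7 : (4 / 9.87 : ℝ) * (d : ℝ) ^ 2 * (4 / 51) ≤ k * (2 - (pval f t - pval f (-t))) :=
      mul_le_mul hk2 hgap2 (by norm_num) h6
    have h8 : (d : ℝ) ^ 2 / 32 ≤ (4 / 9.87 : ℝ) * (d : ℝ) ^ 2 * (4 / 51) := by
      have h3 : 0 ≤ (d : ℝ) ^ 2 := by positivity
      norm_num
      nlinarith
    linarith
  have h9 : (d : ℝ) * dval f 0 ≤ (d : ℝ) * ((31 / 32 : ℝ) * d) := by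
    nlinarith
  exact le_of_mul_le_mul_left h9 hd0

lemma coef_zero_singleton (f : (Fin n → Bool) → ℝ) (i : Fin n) :
    coef f 0 {i} = fhat f {i} := by
  unfold coef
  rw [sum_eq_single ({i} : Finset (Fin n))]
  · simp
  · intro T _ hne
    split_ifs with h
    · have hnon : (T \ {i}).Nonempty := by
        by_contra hcon
        rw [not_nonempty_iff_eq_empty, sdiff_eq_empty_iff_subset] at hcon
        exact hne (Subset.antisymm hcon h)
      rw [zero_pow (card_pos.mpr hnon).ne']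
      simp
    · rfl
  · intro h0
    simp at h0

lemma dval_zero (f : (Fin n → Bool) → ℝ) : dval f 0 = ∑ i, fhat f {i} := by
  rw [← sum_coef_singleton]
  exact sum_congr rfl fun i _ => coef_zero_singleton f i

/-- The sum of the level one coefficients vanishes for a constant function. -/
lemma sum_singleton_const {f : (Fin n → Bool) → ℝ} (c : ℝ) (hf : ∀ x, f x = c) :
    ∑ i, fhat f {i} = 0 := by
  refine sum_eq_zero fun i _ => ?_
  rw [← coef_zero_singleton, ← Ex_dif]
  unfold Ex dif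
  simp [hf]

lemma sum_singleton_le {g : (Fin n → Bool) → ℝ} {d : ℕ} (hd : 2 ≤ d)
    (hg : ∀ x, g x = 1 ∨ g x = -1)
    (hdeg : ∀ S : Finset (Fin n), d < S.card → fhat g S = 0) :
    ∑ i, fhat g {i} ≤ (31 / 32 : ℝ) * d := by
  by_cases h1 : ∃ y, g y = 1
  · by_cases h2 : ∃ y, g y = -1
    · obtain ⟨y1, hy1⟩ := h1
      obtain ⟨y2, hy2⟩ := h2
      rw [← dval_zero]
      exact dval_bound_of_nonconstant hd hg hdeg hy1 hy2
    · have : ∀ x, g x = 1 := fun x => (hg x).resolve_right fun h => h2 ⟨x, h⟩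
      rw [sum_singleton_const 1 this]
      positivity
  · have : ∀ x, g x = -1 := fun x => (hg x).resolve_left fun h => h1 ⟨x, h⟩
    rw [sum_singleton_const (-1) this]
    positivity

/-- Coordinatewise twist by a fixed sign vector. -/
def twist (a x : Fin n → Bool) : Fin n → Bool := fun i => a i == x i

lemma sg_beq (b c : Bool) : sg (b == c) = sg b * sg c := by
  cases b <;> cases c <;> simp [sg]

lemma twist_twist (a x : Fin n → Bool) : twist a (twist a x) = x := by
  funext i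
  unfold twist
  cases a i <;> cases x i <;> rfl

lemma chi_twist (a x : Fin n → Bool) (S : Finset (Fin n)) :
    chi S (twist a x) = chi S a * chi S x := by
  unfold chi twist
  rw [← prod_mul_distrib]
  exact prod_congr rfl fun i _ => sg_beq _ _

lemma fhat_twist (f : (Fin n → Bool) → ℝ) (a : Fin n → Bool) (S : Finset (Fin n)) :
    fhat (fun x => f (twist a x)) S = chi S a * fhat f S := by
  unfold fhat
  rw [mul_div_assoc', mul_sum]
  congr 1
  let e : (Fin n → Bool) ≃ (Fin n → Bool) :=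
    ⟨twist a, twist a, twist_twist a, twist_twist a⟩
  rw [← Equiv.sum_comp e (fun x => chi S a * (f x * chi S x))]
  refine sum_congr rfl fun x _ => ?_
  change f (twist a x) * chi S x = chi S a * (f (twist a x) * chi S (twist a x))
  rw [chi_twist]
  have h : chi S a * chi S a = 1 := by
    unfold chi
    rw [← prod_mul_distrib]
    exact prod_eq_one fun i _ => sg_sq _
  calc f (twist a x) * chi S x = (chi S a * chi S a) * (f (twist a x) * chi S x) := by
        rw [h, one_mul]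
    _ = _ := by ring

/-- The main estimate: `M(d) ≤ (31/32) d` for `d ≥ 2`. -/
theorem main_theorem (d : ℕ) (hd : 2 ≤ d) (f : (Fin n → Bool) → ℝ)
    (hf : ∀ x, f x = 1 ∨ f x = -1)
    (hdeg : ∀ S : Finset (Fin n), d < S.card → fhat f S = 0) :
    ∑ i, |fhat f {i}| ≤ (31 / 32 : ℝ) * d := by
  let a : Fin n → Bool := fun i => decide (0 ≤ fhat f {i})
  let g : (Fin n → Bool) → ℝ := fun x => f (twist a x)
  have hg : ∀ x, g x = 1 ∨ g x = -1 := fun x => hf _
  have hgd : ∀ S : Finset (Fin n), d < S.card → fhat g S = 0 := by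
    intro S hS
    change fhat (fun x => f (twist a x)) S = 0
    rw [fhat_twist, hdeg S hS, mul_zero]
  have h := sum_singleton_le hd hg hgd
  have he : ∀ i, fhat g {i} = |fhat f {i}| := by
    intro i
    change fhat (fun x => f (twist a x)) {i} = _
    rw [fhat_twist]
    unfold chi
    rw [prod_singleton]
    by_cases hi : 0 ≤ fhat f {i}
    · simp [a, hi, sg, abs_of_nonneg hi]
    · have hi' : fhat f {i} < 0 := not_le.mp hi
      simp [a, hi, sg, abs_of_neg hi']
  simp_rw [he] at h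
  exact h

end

end Vale.Agent.Lib.P047
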