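import Mathlib

namespace Vale.Agent.Lib.P047

open Finset Polynomial

noncomputable section

/-- Power sums of the odd powers of a primitive `4n`-th root of unity. -/
lemma sum_odd_pow_eq_zero {n : ℕ} {ζ : ℂ} (hζ : IsPrimitiveRoot ζ (4 * n)) {m : ℕ}
    (hm0 : 0 < m) (hm : m < 2 * n) :
    ∑ k ∈ range (2 * n), (ζ ^ (2 * k + 1)) ^ m = 0 := by
  have hn : 0 < n := by omega
  set r : ℂ := ζ ^ (2 * m) with hr
  have hr1 : r ≠ 1 := by
    intro h
    have := hζ.dvd_of_pow_eq_one (2 * m) h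
    have h2 : 4 * n ≤ 2 * m := Nat.le_of_dvd (by omega) this
    omega
  have hrn : r ^ (2 * n) = 1 := by
    rw [hr, ← pow_mul]
    have : 2 * m * (2 * n) = 4 * n * m := by ring
    rw [this, pow_mul, hζ.pow_eq_one, one_pow]
  have hgeom : ∑ k ∈ range (2 * n), r ^ k = 0 := by
    have := mul_geom_sum r (2 * n)
    rw [hrn, sub_self] at this
    rcases mul_eq_zero.mp this with h | h
    · exact absurd (sub_eq_zero.mp h) hr1
    · exact h
  have : ∀ k ∈ range (2 * n), (ζ ^ (2 * k + 1)) ^ m = ζ ^ m * r ^ k := by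
    intro k _
    rw [hr, ← pow_mul, ← pow_mul, ← pow_add]
    congr 1
    ring
  rw [sum_congr rfl this, ← mul_sum, hgeom, mul_zero]

lemma zeta_pow_two_mul {n : ℕ} {ζ : ℂ} (hζ : IsPrimitiveRoot ζ (4 * n)) (hn : 0 < n) :
    ζ ^ (2 * n) = -1 := by
  have h1 : (ζ ^ (2 * n)) ^ 2 = 1 := by
    rw [← pow_mul]
    have : 2 * n * 2 = 4 * n := by ring
    rw [this, hζ.pow_eq_one]
  have h2 : ζ ^ (2 * n) ≠ 1 := by
    intro h
    have := hζ.dvd_of_pow_eq_one (2 * n) h
    have h3 : 4 * n ≤ 2 * n := Nat.le_of_dvd (by omega) this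
    omega
  have h3 : (ζ ^ (2 * n) - 1) * (ζ ^ (2 * n) + 1) = 0 := by ring_nf; rw [pow_mul] at *; ring_nf at h1 ⊢; rw [h1]; ring
  rcases mul_eq_zero.mp h3 with h | h
  · exact absurd (sub_eq_zero.mp h) h2
  · exact eq_neg_of_add_eq_zero_left h

/-- The odd powers are different from `1`. -/
lemma omega_ne_one {n : ℕ} {ζ : ℂ} (hζ : IsPrimitiveRoot ζ (4 * n)) (k : ℕ) :
    ζ ^ (2 * k + 1) ≠ 1 := by
  intro h
  have h1 := hζ.dvd_of_pow_eq_one (2 * k + 1) h
  have h2 : 2 ∣ 2 * k + 1 := dvd_trans ⟨2 * n, by ring⟩ h1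
  omega

/-- The basic sums. -/
def A (n : ℕ) (ζ : ℂ) (m : ℕ) : ℂ :=
  ∑ k ∈ range (2 * n), (ζ ^ (2 * k + 1)) ^ m / (1 - ζ ^ (2 * k + 1)) ^ 2

lemma A_second_diff {n : ℕ} {ζ : ℂ} (hζ : IsPrimitiveRoot ζ (4 * n)) (m : ℕ) :
    A n ζ m - 2 * A n ζ (m + 1) + A n ζ (m + 2) = ∑ k ∈ range (2 * n), (ζ ^ (2 * k + 1)) ^ m := by
  unfold A
  rw [mul_sum, ← sum_sub_distrib, ← sum_add_distrib]
  refine sum_congr rfl fun k _ => ?_
  have h : (1 : ℂ) - ζ ^ (2 * k + 1) ≠ 0 := sub_ne_zero.mpr (omega_ne_one hζ k).symm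
  field_simp
  ring

lemma A_zero_eq_A_two {n : ℕ} {ζ : ℂ} (hζ : IsPrimitiveRoot ζ (4 * n)) :
    A n ζ 0 = A n ζ 2 := by
  unfold A
  rw [← sum_range_reflect]
  refine sum_congr rfl fun k hk => ?_
  have hk' : k < 2 * n := mem_range.mp hk
  set j := 2 * n - 1 - k with hj
  have hjk : (2 * j + 1) + (2 * k + 1) = 4 * n := by omega
  have hprod : ζ ^ (2 * j + 1) * ζ ^ (2 * k + 1) = 1 := by
    rw [← pow_add, hjk, hζ.pow_eq_one]
  have h1 : (1 : ℂ) - ζ ^ (2 * k + 1) ≠ 0 := sub_ne_zero.mpr (omega_ne_one hζ k).symm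
  have h2 : (1 : ℂ) - ζ ^ (2 * j + 1) ≠ 0 := sub_ne_zero.mpr (omega_ne_one hζ j).symm
  set u := ζ ^ (2 * j + 1) with hu
  set v := ζ ^ (2 * k + 1) with hv
  have hv0 : v ≠ 0 := by
    intro h0
    rw [h0, mul_zero] at hprod
    exact zero_ne_one hprod
  have hu_eq : u = v⁻¹ := eq_inv_of_mul_eq_one_left hprod
  rw [pow_zero, hu_eq]
  have h3 : 1 - v⁻¹ = -(1 - v) / v := by
    field_simp
    ring
  rw [h3, div_pow, neg_pow_two, one_div_div]

lemma A_top {n : ℕ} {ζ : ℂ} (hζ : IsPrimitiveRoot ζ (4 * n)) (hn : 0 < n) :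
    A n ζ (2 * n + 1) = - A n ζ 1 := by
  unfold A
  rw [← sum_neg_distrib]
  refine sum_congr rfl fun k _ => ?_
  have h : (ζ ^ (2 * k + 1)) ^ (2 * n) = -1 := by
    rw [← pow_mul, mul_comm, pow_mul, zeta_pow_two_mul hζ hn, pow_succ, pow_mul]
    simp
  rw [pow_succ, h]
  ring

lemma A_step {n : ℕ} {ζ : ℂ} (hζ : IsPrimitiveRoot ζ (4 * n)) (j : ℕ)
    (hj : j < 2 * n) : A n ζ (j + 2) - A n ζ (j + 1) = n := by
  induction j with
  | zero =>
    have h := A_second_diff hζ 0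
    have h0 := A_zero_eq_A_two hζ
    simp only [zero_add] at h ⊢
    simp only [pow_zero, sum_const, card_range, nsmul_eq_mul, mul_one] at h
    rw [h0] at h
    push_cast at h
    linear_combination h / 2
  | succ j ih =>
    have h := A_second_diff hζ (j + 1)
    rw [sum_odd_pow_eq_zero hζ (by omega) (by omega)] at h
    have ih' := ih (by omega)
    have e1 : j + 1 + 2 = j + 3 := by ring
    have e2 : j + 1 + 1 = j + 2 := by ring
    rw [e2, e1] at *
    linear_combination h + ih'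

lemma A_linear {n : ℕ} {ζ : ℂ} (hζ : IsPrimitiveRoot ζ (4 * n)) (hn : 0 < n) (j : ℕ)
    (hj : j ≤ 2 * n) : A n ζ (j + 1) = A n ζ 1 + j * n := by
  induction j with
  | zero => simp
  | succ j ih =>
    have h := A_step hζ j (by omega)
    have ih' := ih (by omega)
    have e : j + 1 + 1 = j + 2 := by ring
    rw [e]
    push_cast
    linear_combination h + ih'

lemma A_one {n : ℕ} {ζ : ℂ} (hζ : IsPrimitiveRoot ζ (4 * n)) (hn : 0 < n) :
    A n ζ 1 = -(n : ℂ) ^ 2 := by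
  have h1 := A_linear hζ hn (2 * n) le_rfl
  have h2 := A_top hζ hn
  rw [h2] at h1
  push_cast at h1
  have : 2 * A n ζ 1 = -(2 * (n : ℂ) ^ 2) := by linear_combination -h1
  have h3 : (2 : ℂ) ≠ 0 := two_ne_zero
  apply mul_left_cancel₀ h3
  rw [this]
  ring

lemma A_formula {n : ℕ} {ζ : ℂ} (hζ : IsPrimitiveRoot ζ (4 * n)) (hn : 0 < n) (m : ℕ)
    (hm : m ≤ 2 * n) : A n ζ (m + 1) = n * ((m : ℂ) - n) := by
  rw [A_linear hζ hn m hm, A_one hζ hn]
  ring

/-- The interpolation identity for polynomials of degree at most `2n`. -/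
lemma riesz_poly {n : ℕ} {ζ : ℂ} (hζ : IsPrimitiveRoot ζ (4 * n)) (hn : 0 < n) (Q : ℂ[X])
    (hQ : Q.natDegree ≤ 2 * n) :
    ∑ k ∈ range (2 * n), (ζ ^ (2 * k + 1)) / (1 - ζ ^ (2 * k + 1)) ^ 2 * Q.eval (ζ ^ (2 * k + 1))
      = n * (Q.derivative.eval 1 - n * Q.eval 1) := by
  have hQ' : Q.natDegree < 2 * n + 1 := by omega
  have hsum := Polynomial.as_sum_range' Q (2 * n + 1) hQ'
  have hev : ∀ z : ℂ, Q.eval z = ∑ m ∈ range (2 * n + 1), Q.coeff m * z ^ m := by
    intro z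
    exact Polynomial.eval_eq_sum_range' hQ' z
  have hder : Q.derivative.eval 1 = ∑ m ∈ range (2 * n + 1), Q.coeff m * (m : ℂ) := by
    conv_lhs => rw [hsum]
    simp only [Polynomial.derivative_sum, Polynomial.eval_finsetSum, Polynomial.derivative_monomial,
      Polynomial.eval_monomial, one_pow, mul_one]
  have hlhs : ∑ k ∈ range (2 * n), (ζ ^ (2 * k + 1)) / (1 - ζ ^ (2 * k + 1)) ^ 2
        * Q.eval (ζ ^ (2 * k + 1))
      = ∑ m ∈ range (2 * n + 1), Q.coeff m * A n ζ (m + 1) := by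
    unfold A
    simp_rw [hev, mul_sum]
    rw [sum_comm]
    refine sum_congr rfl fun m _ => sum_congr rfl fun k _ => ?_
    ring
  rw [hlhs, hder, hev 1]
  have : ∀ m ∈ range (2 * n + 1), Q.coeff m * A n ζ (m + 1)
      = n * (Q.coeff m * (m : ℂ) - n * (Q.coeff m * (1 : ℂ) ^ m)) := by
    intro m hm
    rw [A_formula hζ hn m (by have := mem_range.mp hm; omega)]
    simp
    ring
  rw [sum_congr rfl this, ← mul_sum, sum_sub_distrib, ← mul_sum]

open Real in
/-- Interpolation angles. -/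
def theta (n k : ℕ) : ℝ := (2 * k + 1) * π / (2 * n)

/-- Interpolation weights. -/
def kappa (n k : ℕ) : ℝ := 1 / (2 - 2 * Real.cos (theta n k))

/-- A primitive `4n`-th root of unity. -/
def zeta (n : ℕ) : ℂ := Complex.exp (2 * Real.pi * Complex.I / (4 * n : ℕ))

lemma zeta_prim {n : ℕ} (hn : 0 < n) : IsPrimitiveRoot (zeta n) (4 * n) :=
  Complex.isPrimitiveRoot_exp (4 * n) (by omega)

lemma omega_eq {n : ℕ} (hn : 0 < n) (k : ℕ) :
    zeta n ^ (2 * k + 1) = Complex.exp ((theta n k : ℝ) * Complex.I) := by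
  unfold zeta theta
  rw [← Complex.exp_nat_mul]
  congr 1
  have hn' : (n : ℂ) ≠ 0 := by exact_mod_cast hn.ne'
  push_cast
  field_simp
  ring

lemma omega_eq' {n : ℕ} (hn : 0 < n) (k : ℕ) :
    zeta n ^ (2 * k + 1)
      = (Real.cos (theta n k) : ℂ) + (Real.sin (theta n k) : ℂ) * Complex.I := by
  rw [omega_eq hn, Complex.exp_mul_I, Complex.ofReal_cos, Complex.ofReal_sin]

lemma zeta_pow_n {n : ℕ} (hn : 0 < n) : zeta n ^ n = Complex.I := by
  unfold zeta
  rw [← Complex.exp_nat_mul]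
  have hn' : (n : ℂ) ≠ 0 := by exact_mod_cast hn.ne'
  have : (n : ℂ) * (2 * Real.pi * Complex.I / (4 * n : ℕ)) = ((Real.pi / 2 : ℝ) : ℂ) * Complex.I := by
    push_cast
    field_simp
    ring
  rw [this, Complex.exp_mul_I, ← Complex.ofReal_cos, ← Complex.ofReal_sin, Real.cos_pi_div_two,
    Real.sin_pi_div_two]
  simp

lemma omega_pow_n {n : ℕ} (hn : 0 < n) (k : ℕ) :
    (zeta n ^ (2 * k + 1)) ^ n = ((-1 : ℂ)) ^ k * Complex.I := by
  rw [← pow_mul, mul_comm, pow_mul, zeta_pow_n hn, pow_succ, pow_mul, Complex.I_sq]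

lemma cos_theta_ne_one {n : ℕ} (hn : 0 < n) (k : ℕ) : Real.cos (theta n k) ≠ 1 := by
  intro h
  have hs : Real.sin (theta n k) = 0 := by
    have := Real.sin_sq_add_cos_sq (theta n k)
    rw [h] at this
    nlinarith
  have h1 := omega_eq' hn k
  rw [h, hs] at h1
  simp at h1
  exact omega_ne_one (zeta_prim hn) k h1

lemma denom_pos {n : ℕ} (hn : 0 < n) (k : ℕ) : 0 < 2 - 2 * Real.cos (theta n k) := by
  have h1 := Real.cos_le_one (theta n k)
  have h2 := cos_theta_ne_one hn k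
  have h3 : Real.cos (theta n k) < 1 := lt_of_le_of_ne h1 h2
  linarith

lemma kappa_pos {n : ℕ} (hn : 0 < n) (k : ℕ) : 0 < kappa n k :=
  one_div_pos.mpr (denom_pos hn k)

lemma omega_div {n : ℕ} (hn : 0 < n) (k : ℕ) :
    zeta n ^ (2 * k + 1) / (1 - zeta n ^ (2 * k + 1)) ^ 2 = -(kappa n k : ℂ) := by
  have hne : (1 : ℂ) - zeta n ^ (2 * k + 1) ≠ 0 :=
    sub_ne_zero.mpr (omega_ne_one (zeta_prim hn) k).symm
  have hd : ((2 - 2 * Real.cos (theta n k) : ℝ) : ℂ) ≠ 0 := by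
    exact_mod_cast (denom_pos hn k).ne'
  have hkey : (1 - zeta n ^ (2 * k + 1)) ^ 2
      = -((2 - 2 * Real.cos (theta n k) : ℝ) : ℂ) * zeta n ^ (2 * k + 1) := by
    rw [omega_eq' hn k]
    set c := Real.cos (theta n k)
    set s := Real.sin (theta n k)
    have h1 : (c : ℂ) ^ 2 + (s : ℂ) ^ 2 = 1 := by
      have := Real.cos_sq_add_sin_sq (theta n k)
      exact_mod_cast this
    have hI : Complex.I ^ 2 = -1 := Complex.I_sq
    push_cast
    linear_combination (s : ℂ) ^ 2 * hI - h1 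
  have hω : zeta n ^ (2 * k + 1) ≠ 0 :=
    pow_ne_zero _ ((zeta_prim hn).ne_zero (by omega))
  unfold kappa
  rw [hkey]
  push_cast
  push_cast at hd
  field_simp

lemma kappa_sum {n : ℕ} (hn : 0 < n) : ∑ k ∈ range (2 * n), kappa n k = (n : ℝ) ^ 2 := by
  have h := A_one (zeta_prim hn) hn
  unfold A at h
  simp only [pow_one] at h
  rw [sum_congr rfl (fun k _ => omega_div hn k), sum_neg_distrib] at h
  have h2 : ((∑ k ∈ range (2 * n), kappa n k : ℝ) : ℂ) = ((n : ℝ) ^ 2 : ℝ) := by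
    push_cast
    linear_combination -h
  exact_mod_cast h2

/-- The auxiliary polynomial. -/
def auxG : ℂ[X] := C (-Complex.I / 2) * (X ^ 2 - 1)

def auxQ (n : ℕ) (P : ℂ[X]) : ℂ[X] :=
  ∑ j ∈ range (n + 1), C (P.coeff j) * (auxG ^ j * X ^ (n - j))

lemma auxG_natDegree : auxG.natDegree ≤ 2 := by
  unfold auxG
  compute_degree

lemma auxQ_natDegree (n : ℕ) (P : ℂ[X]) : (auxQ n P).natDegree ≤ 2 * n := by
  unfold auxQ
  refine natDegree_sum_le_of_forall_le _ _ fun j hj => ?_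
  have hj' : j ≤ n := by have := mem_range.mp hj; omega
  refine (natDegree_C_mul_le _ _).trans ?_
  refine natDegree_mul_le.trans ?_
  have h1 : (auxG ^ j).natDegree ≤ j * 2 :=
    natDegree_pow_le_of_le j auxG_natDegree
  have h2 : (X ^ (n - j) : ℂ[X]).natDegree ≤ n - j := natDegree_X_pow_le _
  omega

lemma auxG_eval_one : auxG.eval 1 = 0 := by
  simp [auxG]

lemma auxG_deriv_eval_one : auxG.derivative.eval 1 = -Complex.I := by
  simp [auxG, derivative_mul]
  ring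

lemma auxQ_eval_one {n : ℕ} (hn : 0 < n) (P : ℂ[X]) : (auxQ n P).eval 1 = P.coeff 0 := by
  obtain ⟨m, rfl⟩ : ∃ m, n = m + 1 := ⟨n - 1, by omega⟩
  unfold auxQ
  rw [eval_finsetSum, sum_range_succ']
  simp [auxG_eval_one]

lemma auxQ_deriv_eval_one {n : ℕ} (hn : 0 < n) (P : ℂ[X]) :
    (auxQ n P).derivative.eval 1 = n * P.coeff 0 - Complex.I * P.coeff 1 := by
  obtain ⟨m, rfl⟩ : ∃ m, n = m + 1 := ⟨n - 1, by omega⟩
  unfold auxQ
  rw [derivative_sum, eval_finsetSum, sum_range_succ', sum_range_succ']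
  have hzero : ∀ j ∈ range m, (derivative (C (P.coeff (j + 1 + 1))
      * (auxG ^ (j + 1 + 1) * X ^ (m + 1 - (j + 1 + 1))))).eval 1 = 0 := by
    intro j _
    simp [derivative_mul, derivative_pow, auxG_eval_one]
  rw [sum_eq_zero hzero]
  simp [derivative_mul, auxG_eval_one, auxG_deriv_eval_one]
  ring

lemma auxQ_eval_omega {n : ℕ} (hn : 0 < n) (k : ℕ) (P : ℂ[X]) (hP : P.natDegree ≤ n) :
    (auxQ n P).eval (zeta n ^ (2 * k + 1))
      = (zeta n ^ (2 * k + 1)) ^ n * P.eval (Real.sin (theta n k) : ℂ) := by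
  set ω := zeta n ^ (2 * k + 1) with hω
  set s := Real.sin (theta n k) with hs
  have hG : auxG.eval ω = (s : ℂ) * ω := by
    rw [hω, omega_eq' hn k]
    set c := Real.cos (theta n k)
    have h1 : (c : ℂ) ^ 2 + (s : ℂ) ^ 2 = 1 := by
      have := Real.cos_sq_add_sin_sq (theta n k)
      exact_mod_cast this
    have hI : Complex.I ^ 2 = -1 := Complex.I_sq
    simp only [auxG, eval_mul, eval_C, eval_sub, eval_pow, eval_X, eval_one]
    linear_combination (-Complex.I / 2) * h1 + (-Complex.I * (s : ℂ) ^ 2 / 2 - (c : ℂ) * (s : ℂ)) * hI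
  have hPev : P.eval (s : ℂ) = ∑ j ∈ range (n + 1), P.coeff j * (s : ℂ) ^ j :=
    eval_eq_sum_range' (by omega) _
  rw [hPev, mul_sum]
  unfold auxQ
  rw [eval_finsetSum]
  refine sum_congr rfl fun j hj => ?_
  have hj' : j ≤ n := by have := mem_range.mp hj; omega
  simp only [eval_mul, eval_C, eval_pow, eval_X, hG]
  have : ω ^ n = ω ^ j * ω ^ (n - j) := by
    rw [← pow_add]
    congr 1
    omega
  rw [this, mul_pow]
  ring

/-- Riesz interpolation at the derivative at zero, for real polynomials. -/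
lemma riesz_real {n : ℕ} (hn : 0 < n) (p : ℝ[X]) (hp : p.natDegree ≤ n) :
    ∑ k ∈ range (2 * n), (-1 : ℝ) ^ k * kappa n k * p.eval (Real.sin (theta n k))
      = n * p.derivative.eval 0 := by
  set P : ℂ[X] := p.map Complex.ofRealHom with hPdef
  have hP : P.natDegree ≤ n := (natDegree_map_le).trans hp
  have h := riesz_poly (zeta_prim hn) hn (auxQ n P) (auxQ_natDegree n P)
  rw [auxQ_deriv_eval_one hn, auxQ_eval_one hn] at h
  have hterm : ∀ k ∈ range (2 * n), zeta n ^ (2 * k + 1) / (1 - zeta n ^ (2 * k + 1)) ^ 2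
      * (auxQ n P).eval (zeta n ^ (2 * k + 1))
      = -Complex.I * (((-1 : ℝ) ^ k * kappa n k * p.eval (Real.sin (theta n k)) : ℝ) : ℂ) := by
    intro k _
    rw [auxQ_eval_omega hn k P hP, omega_div hn, omega_pow_n hn]
    have hev : P.eval (Real.sin (theta n k) : ℂ) = ((p.eval (Real.sin (theta n k)) : ℝ) : ℂ) := by
      rw [hPdef, eval_map]
      exact Polynomial.eval₂_at_apply Complex.ofRealHom (Real.sin (theta n k))
    rw [hev]
    push_cast
    ring
  rw [sum_congr rfl hterm, ← mul_sum] at h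
  have hc1 : P.coeff 1 = (p.derivative.eval 0 : ℝ) := by
    rw [hPdef, coeff_map]
    simp [← coeff_zero_eq_eval_zero, coeff_derivative]
  rw [hc1] at h
  have hI : -Complex.I ≠ 0 := neg_ne_zero.mpr Complex.I_ne_zero
  have h2 : ((∑ k ∈ range (2 * n), (-1 : ℝ) ^ k * kappa n k * p.eval (Real.sin (theta n k)) : ℝ) : ℂ)
      = ((n * p.derivative.eval 0 : ℝ) : ℂ) := by
    apply mul_left_cancel₀ hI
    push_cast at h ⊢
    linear_combination h
  exact_mod_cast h2

lemma theta_zero (n : ℕ) : theta n 0 = Real.pi / (2 * n) := by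
  simp [theta]

lemma theta_last {n : ℕ} (hn : 0 < n) : theta n (2 * n - 1) = 2 * Real.pi - Real.pi / (2 * n) := by
  unfold theta
  have hn' : (n : ℝ) ≠ 0 := by exact_mod_cast hn.ne'
  have : ((2 * n - 1 : ℕ) : ℝ) = 2 * n - 1 := by
    rw [Nat.cast_sub (by omega)]
    push_cast
    ring
  rw [this]
  field_simp
  ring

lemma kappa_last {n : ℕ} (hn : 0 < n) : kappa n (2 * n - 1) = kappa n 0 := by
  unfold kappa
  rw [theta_last hn, theta_zero, Real.cos_two_pi_sub]

lemma sin_theta_last {n : ℕ} (hn : 0 < n) :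
    Real.sin (theta n (2 * n - 1)) = -Real.sin (Real.pi / (2 * n)) := by
  rw [theta_last hn, Real.sin_two_pi_sub]

lemma kappa_zero_ge {n : ℕ} (hn : 0 < n) : 4 * (n : ℝ) ^ 2 / Real.pi ^ 2 ≤ kappa n 0 := by
  unfold kappa
  rw [theta_zero]
  set x := Real.pi / (2 * n) with hx
  have hn' : (0 : ℝ) < n := by exact_mod_cast hn
  have hxpos : 0 < x := by positivity
  have h1 := Real.one_sub_sq_div_two_le_cos (x := x)
  have h2 : 0 < 2 - 2 * Real.cos x := by
    have := denom_pos hn 0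
    rwa [theta_zero] at this
  have h3 : 2 - 2 * Real.cos x ≤ x ^ 2 := by linarith
  have h4 : 4 * (n : ℝ) ^ 2 / Real.pi ^ 2 = 1 / x ^ 2 := by
    rw [hx]
    field_simp
    ring
  rw [h4]
  exact one_div_le_one_div_of_le h2 h3

/-- The bound extracted from the two innermost nodes. -/
lemma riesz_bound {n : ℕ} (hn : 0 < n) (p : ℝ[X]) (hp : p.natDegree ≤ n)
    (hb : ∀ x : ℝ, -1 ≤ x → x ≤ 1 → |p.eval x| ≤ 1) :
    (n : ℝ) * p.derivative.eval 0 ≤ (n : ℝ) ^ 2
      - kappa n 0 * (2 - (p.eval (Real.sin (Real.pi / (2 * n)))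
          - p.eval (-Real.sin (Real.pi / (2 * n))))) := by
  have h := riesz_real hn p hp
  have hs := kappa_sum hn
  set g : ℕ → ℝ := fun k => kappa n k - (-1 : ℝ) ^ k * kappa n k * p.eval (Real.sin (theta n k))
    with hg
  have hg0 : ∀ k ∈ range (2 * n), 0 ≤ g k := by
    intro k _
    have hk := kappa_pos hn k
    have hev := hb (Real.sin (theta n k)) (Real.neg_one_le_sin _) (Real.sin_le_one _)
    have h1 : (-1 : ℝ) ^ k * kappa n k * p.eval (Real.sin (theta n k)) ≤ kappa n k := by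
      have h2 : |(-1 : ℝ) ^ k * kappa n k * p.eval (Real.sin (theta n k))|
          = kappa n k * |p.eval (Real.sin (theta n k))| := by
        rw [abs_mul, abs_mul, abs_pow, abs_neg, abs_one, one_pow, one_mul, abs_of_pos hk]
      have h3 := le_abs_self ((-1 : ℝ) ^ k * kappa n k * p.eval (Real.sin (theta n k)))
      rw [h2] at h3
      nlinarith
    simp only [hg]
    linarith
  have hsub : ({0, 2 * n - 1} : Finset ℕ) ⊆ range (2 * n) := by
    intro k hk
    simp only [mem_insert, mem_singleton] at hk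
    rw [mem_range]
    omega
  have hle := sum_le_sum_of_subset_of_nonneg hsub (fun k hk _ => hg0 k hk)
  have hne : (0 : ℕ) ≠ 2 * n - 1 := by omega
  rw [sum_pair hne] at hle
  have htot : ∑ k ∈ range (2 * n), g k = (n : ℝ) ^ 2 - n * p.derivative.eval 0 := by
    simp only [hg]
    rw [sum_sub_distrib, hs, h]
  rw [htot] at hle
  have hodd : (-1 : ℝ) ^ (2 * n - 1) = -1 := by
    apply Odd.neg_one_pow
    exact ⟨n - 1, by omega⟩
  have hg1 : g 0 = kappa n 0 * (1 - p.eval (Real.sin (Real.pi / (2 * n)))) := by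
    simp only [hg, pow_zero, one_mul]
    rw [theta_zero]
    ring
  have hg2 : g (2 * n - 1) = kappa n 0 * (1 + p.eval (-Real.sin (Real.pi / (2 * n)))) := by
    simp only [hg]
    rw [hodd, kappa_last hn, sin_theta_last hn]
    ring
  rw [hg1, hg2] at hle
  nlinarith

end

end Vale.Agent.Lib.P047
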